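import Vale.Agent.P126.H584.Main

/-!
# P126: the blocks
-/

namespace Vale.Agent.P126.H584

open Vale.Agent.P126 Vale.Agent.P126.CQ

/-- a block: the data of the combinatorial core, with functions extended by zero -/
structure Blk (κ m : ℕ) where
  nW : ℕ
  nX : ℕ
  N : ℕ
  f : ℕ → ℕ → ℝ
  cls : (ℕ → ℝ) → Fin N
  zW : ∀ w x, nW ≤ w → f w x = 0
  zX : ∀ w x, nX ≤ x → f w x = 0
  sep : ∀ x < nX, ∀ y < nX, x ≠ y → ∃ w, (κ : ℝ) ≤ |f w x - f w y|
  hcls : ∀ lam mu : ℕ → ℝ, ∑ w ∈ Finset.range nW, |lam w| ≤ 1 →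
    ∑ w ∈ Finset.range nW, |mu w| ≤ 1 → cls lam = cls mu →
      ∀ x, |∑ w ∈ Finset.range nW, (lam w - mu w) * f w x| ≤ 4
  hN : N ^ m ≤ nX
  h2 : 2 ^ m ≤ nX
  hX : nX ≤ 2 ^ ((m + 1) ^ (10 * 32 ^ (κ + 1)))

theorem exists_blk (κ m : ℕ) (hm : 32 * (κ + 1) ^ 2 ≤ m) : Nonempty (Blk κ m) := by
  obtain ⟨nW, nX, N, f, cls, hnW, hsep, hcls, hN, h2m, hnX, -⟩ := core2 κ m hm
  set g : ℕ → ℕ → ℝ := fun w x => if h : w < nW ∧ x < nX then f ⟨w, h.1⟩ ⟨x, h.2⟩ else 0 with hg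
  have hgf : ∀ (w : Fin nW) (x : Fin nX), g w x = f w x := by
    intro w x
    rw [hg]
    simp only [Fin.is_lt, and_self, ↓reduceDIte, Fin.eta]
  have hgz : ∀ w x, ¬ (w < nW ∧ x < nX) → g w x = 0 := by
    intro w x h
    rw [hg]
    simp only [h, ↓reduceDIte]
  refine ⟨⟨nW, nX, N, g, fun lam => cls fun w => lam w, ?_, ?_, ?_, ?_, hN, h2m, hnX⟩⟩
  · exact fun w x h => hgz w x (by omega)
  · exact fun w x h => hgz w x (by omega)
  · intro x hx y hy hxy
    obtain ⟨w, hw⟩ := hsep ⟨x, hx⟩ ⟨y, hy⟩ (by simpa using hxy)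
    refine ⟨w, ?_⟩
    rw [show g w x = f w ⟨x, hx⟩ from hgf w ⟨x, hx⟩, show g w y = f w ⟨y, hy⟩ from hgf w ⟨y, hy⟩]
    exact hw
  · intro lam mu h1 h2 h3 x
    by_cases hx : x < nX
    · have := hcls (fun w => lam w) (fun w => mu w)
        (by rwa [← Fin.sum_univ_eq_sum_range (fun w => |lam w|)] at h1)
        (by rwa [← Fin.sum_univ_eq_sum_range (fun w => |mu w|)] at h2) h3 ⟨x, hx⟩
      rw [← Fin.sum_univ_eq_sum_range (fun w => (lam w - mu w) * g w x)]
      have he : ∀ w : Fin nW, g w x = f w ⟨x, hx⟩ := fun w => hgf w ⟨x, hx⟩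
      simpa only [he] using this
    · have : ∀ w ∈ Finset.range nW, (lam w - mu w) * g w x = 0 := by
        intro w _
        rw [hgz w x (by omega), mul_zero]
      rw [Finset.sum_eq_zero this]
      norm_num

theorem Blk.N_pos {κ m : ℕ} (b : Blk κ m) : 0 < b.N := (Nat.zero_le _).trans_lt (b.cls 0).2

theorem Blk.nX_pos {κ m : ℕ} (b : Blk κ m) : 0 < b.nX := lt_of_lt_of_le (by positivity) b.h2

/-- the entries of a block -/
theorem Blk.f_le {κ m : ℕ} (b : Blk κ m) (w x : ℕ) : |b.f w x| ≤ 4 * b.N := by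
  have hN : (0 : ℝ) < b.N := by exact_mod_cast b.N_pos
  by_cases hw : w < b.nW
  swap
  · rw [b.zW w x (by omega), abs_zero]
    positivity
  set P : ℕ → ℕ → ℝ := fun k v => if v = w then (k : ℝ) / b.N else 0 with hP
  have hPs : ∀ k : ℕ, k ≤ b.N → ∑ v ∈ Finset.range b.nW, |P k v| ≤ 1 := by
    intro k hk
    have h1 : ∀ v ∈ Finset.range b.nW, |P k v| = if v = w then (k : ℝ) / b.N else 0 := by
      intro v _
      rw [hP]
      apply abs_of_nonneg
      dsimp only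
      split_ifs
      · positivity
      · exact le_rfl
    rw [Finset.sum_congr rfl h1, Finset.sum_ite_eq', if_pos (Finset.mem_range.2 hw),
      div_le_one hN]
    exact_mod_cast hk
  obtain ⟨k, hk, l, hl, hkl, he⟩ := Finset.exists_ne_map_eq_of_card_lt_of_maps_to
    (s := Finset.range (b.N + 1)) (t := (Finset.univ : Finset (Fin b.N)))
    (f := fun k => b.cls (P k)) (by simp) (fun _ _ => Finset.mem_coe.2 (Finset.mem_univ _))
  have hk' : k ≤ b.N := by simpa [Nat.lt_succ_iff] using hk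
  have hl' : l ≤ b.N := by simpa [Nat.lt_succ_iff] using hl
  have h1 := b.hcls (P k) (P l) (hPs k hk') (hPs l hl') he x
  have h2 : ∀ v ∈ Finset.range b.nW, (P k v - P l v) * b.f v x =
      if v = w then ((k : ℝ) - l) / b.N * b.f w x else 0 := by
    intro v _
    rw [hP]
    dsimp only
    split_ifs with h
    · rw [h]; ring
    · ring
  rw [Finset.sum_congr rfl h2, Finset.sum_ite_eq', if_pos (Finset.mem_range.2 hw), abs_mul,
    abs_div, abs_of_pos hN] at h1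
  have h3 : 1 ≤ |(k : ℝ) - l| := by
    have : (1 : ℤ) ≤ |(k : ℤ) - l| := Int.one_le_abs (by omega)
    exact_mod_cast this
  have h4 : 1 / (b.N : ℝ) * |b.f w x| ≤ 4 := by
    refine le_trans ?_ h1
    gcongr
  rw [div_mul_eq_mul_div, one_mul, div_le_iff₀ hN] at h4
  exact h4

end Vale.Agent.P126.H584
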