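import Vale.Agent.P126.H584.Blk

/-!
# P126: the numerical step
-/

namespace Vale.Agent.P126.H584

open Vale.Agent.P126 Vale.Agent.P126.CQ

theorem log_nX_ge {κ m : ℕ} (b : Blk κ m) : (m : ℝ) / 2 ≤ Real.log b.nX := by
  have h1 : (m : ℝ) * Real.log 2 ≤ Real.log b.nX := by
    rw [← Real.log_pow]
    apply Real.log_le_log (by positivity)
    exact_mod_cast b.h2
  have h2 := Real.log_two_gt_d9
  have h3 : (0 : ℝ) ≤ m := Nat.cast_nonneg m
  nlinarith only [h1, h2, h3]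

theorem log_N_le {κ m : ℕ} (b : Blk κ m) : (m : ℝ) * Real.log b.N ≤ Real.log b.nX := by
  have hN0R : (0 : ℝ) < b.N := by exact_mod_cast b.N_pos
  calc (m : ℝ) * Real.log b.N = Real.log ((b.N : ℝ) ^ m) := (Real.log_pow _ _).symm
      _ ≤ Real.log b.nX := by
          apply Real.log_le_log (by positivity)
          exact_mod_cast b.hN

theorem log_nX_le {κ m : ℕ} (b : Blk κ m) :
    Real.log b.nX ≤ (m + 1 : ℝ) ^ (10 * 32 ^ (κ + 1)) := by
  have hnX0R : (0 : ℝ) < b.nX := by exact_mod_cast b.nX_pos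
  have h1 : (b.nX : ℝ) ≤ 2 ^ ((m + 1) ^ (10 * 32 ^ (κ + 1))) := by exact_mod_cast b.hX
  have h2 := Real.log_le_log hnX0R h1
  rw [Real.log_pow] at h2
  push_cast at h2
  have h3 := Real.log_two_lt_d9
  have h4 : (0 : ℝ) ≤ (m + 1 : ℝ) ^ (10 * 32 ^ (κ + 1)) := by positivity
  nlinarith only [h2, h3, h4]

/-- the numerical step: `D` coordinates of precision `c0 / (10 N)` are negligible -/
theorem num_bound {κ m : ℕ} (b : Blk κ m) {c0 : ℝ} {D : ℕ}
    (hm : 32 * ((D + 1) * (⌈Real.log (10 / c0)⌉₊ + 1)) ^ 2 ≤ m) {Y e : ℝ}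
    (hY : Real.log b.nX ≤ Y) (he : e ≤ 1 / (2 * ((10 * 32 ^ (κ + 1) : ℕ) : ℝ))) :
    Real.log b.N + D * (Real.log (10 / c0) + Real.log b.N) ≤ Y ^ (1 - e) := by
  obtain ⟨c, hc⟩ : ∃ c : ℕ, c = 10 * 32 ^ (κ + 1) := ⟨_, rfl⟩
  have hc0 : 0 < c := by rw [hc]; positivity
  have hcR : (1 : ℝ) ≤ c := by exact_mod_cast hc0
  have hy1 := log_nX_ge b
  have hyN := log_N_le b
  have hy2 := log_nX_le b
  rw [← hc] at hy2 he
  set y := Real.log b.nX with hydef
  set q : ℕ := ⌈Real.log (10 / c0)⌉₊ with hq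
  have hC1 : Real.log (10 / c0) ≤ q := Nat.le_ceil _
  set K : ℝ := ((D : ℝ) + 1) * ((q : ℝ) + 1) with hK
  have hD0 : (0 : ℝ) ≤ D := Nat.cast_nonneg D
  have hq0 : (0 : ℝ) ≤ q := Nat.cast_nonneg q
  have hK1 : 1 ≤ K := by nlinarith only [hK, hD0, hq0]
  have hKD : (D : ℝ) + 1 ≤ K := by nlinarith only [hK, hD0, hq0]
  have hKC : (D : ℝ) * Real.log (10 / c0) ≤ K := by nlinarith only [hK, hD0, hq0, hC1]
  have hmR : 32 * K ^ 2 ≤ m := by
    have : ((32 * ((D + 1) * (q + 1)) ^ 2 : ℕ) : ℝ) ≤ m := by exact_mod_cast hm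
    push_cast at this
    exact this
  have hm0 : (0 : ℝ) < m := by nlinarith only [hmR, hK1]
  have hm1 : (32 : ℝ) ≤ m := by nlinarith only [hmR, hK1]
  have hy1' : 1 ≤ y := by linarith only [hy1, hm1]
  have hy0 : 0 < y := by linarith only [hy1']
  set t := y ^ (1 / (2 * (c : ℝ))) with ht
  have ht0 : 0 < t := Real.rpow_pos_of_pos hy0 _
  have htt : t ^ 2 ≤ m + 1 := by
    have h1 : t ^ 2 = y ^ (1 / (c : ℝ)) := by
      rw [ht, ← Real.rpow_natCast, ← Real.rpow_mul hy0.le]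
      congr 1
      push_cast
      field_simp
    rw [h1]
    have h2 : y ^ (1 / (c : ℝ)) ≤ ((m + 1 : ℝ) ^ c) ^ (1 / (c : ℝ)) :=
      Real.rpow_le_rpow hy0.le hy2 (by positivity)
    refine h2.trans (le_of_eq ?_)
    rw [← Real.rpow_natCast, ← Real.rpow_mul (by positivity),
      mul_one_div_cancel (by positivity), Real.rpow_one]
  have h4 : 4 * t * K ≤ m := by
    refine (pow_le_pow_iff_left₀ (by positivity) hm0.le two_ne_zero).1 ?_
    calc (4 * t * K) ^ 2 = 16 * K ^ 2 * t ^ 2 := by ring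
      _ ≤ 16 * K ^ 2 * (2 * m) :=
          mul_le_mul_of_nonneg_left (by linarith only [htt, hm1]) (by positivity)
      _ = (32 * K ^ 2) * m := by ring
      _ ≤ m * m := mul_le_mul_of_nonneg_right hmR hm0.le
      _ = (m : ℝ) ^ 2 := (sq _).symm
  have hlN : 0 ≤ Real.log b.N := Real.log_natCast_nonneg _
  have h5 : ((D : ℝ) + 1) * Real.log b.N ≤ y / (2 * t) := by
    rw [le_div_iff₀ (by positivity)]
    calc ((D : ℝ) + 1) * Real.log b.N * (2 * t) ≤ K * Real.log b.N * (2 * t) := by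
          gcongr
      _ = (2 * t * K) * Real.log b.N := by ring
      _ ≤ m * Real.log b.N := by
          apply mul_le_mul_of_nonneg_right _ hlN
          have : 0 ≤ 2 * t * K := by positivity
          linarith only [this, h4]
      _ ≤ y := hyN
  have h6 : (D : ℝ) * Real.log (10 / c0) ≤ y / (2 * t) := by
    rw [le_div_iff₀ (by positivity)]
    calc (D : ℝ) * Real.log (10 / c0) * (2 * t) ≤ K * (2 * t) :=
          mul_le_mul_of_nonneg_right hKC (by positivity)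
      _ ≤ m / 2 := by linarith only [h4]
      _ ≤ y := hy1
  have h7 : y / (2 * t) + y / (2 * t) = y ^ (1 - 1 / (2 * (c : ℝ))) := by
    rw [Real.rpow_sub hy0, Real.rpow_one, ← ht]
    field_simp
    norm_num
  have h8 : 1 / (2 * (c : ℝ)) ≤ 1 := by
    rw [div_le_one (by positivity)]
    linarith only [hcR]
  calc Real.log b.N + D * (Real.log (10 / c0) + Real.log b.N)
      = ((D : ℝ) + 1) * Real.log b.N + D * Real.log (10 / c0) := by ring
    _ ≤ y / (2 * t) + y / (2 * t) := add_le_add h5 h6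
    _ = y ^ (1 - 1 / (2 * (c : ℝ))) := h7
    _ ≤ Y ^ (1 - 1 / (2 * (c : ℝ))) := Real.rpow_le_rpow hy0.le hY (by linarith only [h8])
    _ ≤ Y ^ (1 - e) :=
        Real.rpow_le_rpow_of_exponent_le (by linarith only [hY, hy1']) (by linarith only [he])

end Vale.Agent.P126.H584
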