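import Vale.Agent.P126.H584.Seq
import Vale.Agent.P126.H584.Num

/-!
# P126: the class map
-/

namespace Vale.Agent.P126.H584

open Vale.Agent.P126 Vale.Agent.P126.CQ

/-- rounding -/
theorem bin_close {u v ρ : ℝ} (hρ : 0 < ρ) (hu : |u| ≤ 1) (hv : |v| ≤ 1)
    (h : ⌊(u + 1) / ρ⌋₊ = ⌊(v + 1) / ρ⌋₊) : |u - v| ≤ ρ := by
  rw [abs_le] at hu hv
  have h1 := Nat.floor_le (show 0 ≤ (u + 1) / ρ from div_nonneg (by linarith) hρ.le)
  have h2 := Nat.floor_le (show 0 ≤ (v + 1) / ρ from div_nonneg (by linarith) hρ.le)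
  have h3 := Nat.lt_floor_add_one ((u + 1) / ρ)
  have h4 := Nat.lt_floor_add_one ((v + 1) / ρ)
  rw [h] at h1 h3
  rw [le_div_iff₀ hρ] at h1 h2
  rw [div_lt_iff₀ hρ] at h3 h4
  rw [abs_le]
  constructor <;> linarith

theorem bin_lt {u ρ : ℝ} (hρ : 0 < ρ) (hu : |u| ≤ 1) : ⌊(u + 1) / ρ⌋₊ < ⌊2 / ρ⌋₊ + 1 := by
  rw [abs_le] at hu
  exact Nat.lt_succ_of_le (Nat.floor_le_floor (div_le_div_of_nonneg_right (by linarith) hρ.le))

/-- the class map -/
theorem class_map (ty : ℕ → Bool) (j : ℕ) (hj : ty j = true) {P : Type} (L : P → ℕ → ℝ)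
    (hL : ∀ p (s : Finset ℕ), ∑ w ∈ s, |L p w| ≤ 1) (G : P → ℕ → ℝ)
    (hG : ∀ p x, G p x = ∑ w ∈ SS x, L p w * Mat ty w x) :
    ∃ (K : Type) (_ : Fintype K) (Φ : P → K),
      (∀ p q, Φ p = Φ q → ∀ x, |G p x - G q x| ≤ 4 * cc j) ∧
      ∀ Y e : ℝ, Real.log (bl j).nX ≤ Y →
        e ≤ 1 / (2 * ((10 * 32 ^ ((Nat.unpair j).1 + 1) : ℕ) : ℝ)) →
        Real.log (Fintype.card K) ≤ Y ^ (1 - e) := by
  have hcc := cc_pos j
  have hρ : 0 < 4 * cc j := by positivity
  have hGle : ∀ p x, |G p x| ≤ 4 / 5 * (st (Nat.unpair x).1).1 := by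
    intro p x
    have h0 := st_pos (Nat.unpair x).1
    rw [hG]
    calc |∑ w ∈ SS x, L p w * Mat ty w x| ≤ ∑ w ∈ SS x, |L p w * Mat ty w x| :=
          Finset.abs_sum_le_sum_abs _ _
      _ ≤ ∑ w ∈ SS x, |L p w| * (4 / 5 * (st (Nat.unpair x).1).1) := by
          refine Finset.sum_le_sum fun w _ => ?_
          rw [abs_mul]
          exact mul_le_mul_of_nonneg_left (Mat_le ty w x) (abs_nonneg _)
      _ = (∑ w ∈ SS x, |L p w|) * (4 / 5 * (st (Nat.unpair x).1).1) :=
          (Finset.sum_mul _ _ _).symm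
      _ ≤ 1 * (4 / 5 * (st (Nat.unpair x).1).1) :=
          mul_le_mul_of_nonneg_right (hL p _) (by positivity)
      _ = _ := one_mul _
  have hG1 : ∀ p x, |G p x| ≤ 1 := by
    intro p x
    have h1 := hGle p x
    have h2 := st_le_one (Nat.unpair x).1
    linarith
  set n : ℕ := ⌊2 / (4 * cc j)⌋₊ + 1 with hn
  set Φ : P → Fin (bl j).N × (EE j → Fin n) := fun p =>
    ((bl j).cls fun w => L p (Nat.pair j w),
      fun x => ⟨⌊(G p x + 1) / (4 * cc j)⌋₊, bin_lt hρ (hG1 p x)⟩) with hΦ
  refine ⟨Fin (bl j).N × (EE j → Fin n), inferInstance, Φ, ?_, ?_⟩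
  · intro p q hpq x
    have hc1 : (bl j).cls (fun w => L p (Nat.pair j w)) =
        (bl j).cls (fun w => L q (Nat.pair j w)) := congrArg Prod.fst hpq
    have hc2 : ∀ x : EE j, ⌊(G p x + 1) / (4 * cc j)⌋₊ = ⌊(G q x + 1) / (4 * cc j)⌋₊ := by
      intro x
      have h := congrFun (congrArg Prod.snd hpq) x
      exact congrArg Fin.val h
    have hx : Nat.pair (Nat.unpair x).1 (Nat.unpair x).2 = x := Nat.pair_unpair x
    rcases lt_trichotomy (Nat.unpair x).1 j with hlt | heq | hgt
    · by_cases hR : (Nat.unpair x).2 < RR (Nat.unpair x).1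
      · have hmem : x ∈ EE j := by
          rw [← hx]
          exact mem_EE hlt hR
        exact bin_close hρ (hG1 p x) (hG1 q x) (hc2 ⟨x, hmem⟩)
      · have h0 : ∀ p, G p x = 0 := by
          intro p
          rw [hG]
          refine Finset.sum_eq_zero fun w _ => ?_
          rw [Mat_zero' ty (not_lt.1 hR), mul_zero]
        rw [h0, h0, sub_zero, abs_zero]
        exact hρ.le
    · set x' := (Nat.unpair x).2 with hx'
      have hxx : x = Nat.pair j x' := by rw [← heq, hx', hx]
      have hpair : ∀ p, G p x = cc j * ∑ w ∈ Finset.range (bl j).nW,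
          L p (Nat.pair j w) * (bl j).f w x' := by
        intro p
        rw [hG, SS, heq, Finset.sum_image]
        · have h1 : ∀ w ∈ Finset.range (RR j), L p (Nat.pair j w) * Mat ty (Nat.pair j w) x =
              cc j * (L p (Nat.pair j w) * (bl j).f w x') := by
            intro w _
            rw [hxx, Mat_pair hj, ff]
            ring
          rw [Finset.sum_congr rfl h1, ← Finset.mul_sum]
          congr 1
          symm
          refine Finset.sum_subset (fun w hw => ?_) fun w _ hw => ?_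
          · rw [Finset.mem_range] at hw ⊢
            rw [RR]
            omega
          · rw [(bl j).zW w x' (by simpa using hw), mul_zero]
        · intro a _ b _ hab
          simpa using hab
      rw [hpair p, hpair q, ← mul_sub, ← Finset.sum_sub_distrib, abs_mul, abs_of_pos hcc, mul_comm]
      have hs : ∀ p, ∑ w ∈ Finset.range (bl j).nW, |L p (Nat.pair j w)| ≤ 1 := by
        intro p
        have := hL p ((Finset.range (bl j).nW).image (Nat.pair j))
        rw [Finset.sum_image] at this
        · exact this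
        · intro a _ b _ hab
          simpa using hab
      have h1 := (bl j).hcls _ _ (hs p) (hs q) hc1 x'
      have h2 : ∀ w ∈ Finset.range (bl j).nW,
          (L p (Nat.pair j w) - L q (Nat.pair j w)) * (bl j).f w x' =
          L p (Nat.pair j w) * (bl j).f w x' - L q (Nat.pair j w) * (bl j).f w x' := by
        intro w _
        ring
      rw [Finset.sum_congr rfl h2] at h1
      exact mul_le_mul_of_nonneg_right h1 hcc.le
    · have h1 := hGle p x
      have h2 := hGle q x
      have h3 : (st (Nat.unpair x).1).1 ≤ cc j := st_anti (show j + 1 ≤ (Nat.unpair x).1 from hgt)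
      calc |G p x - G q x| ≤ |G p x| + |G q x| := abs_sub _ _
        _ ≤ 4 * cc j := by linarith
  · intro Y e hY he
    have hnum := num_bound (bl j) (c0 := (st j).1) (D := (st j).2) (by
      rw [mreq]
      omega) hY he
    refine le_trans ?_ hnum
    have hNpos := N_pos j
    have hnR : (n : ℝ) ≤ 2 / cc j := by
      have h1 : (n : ℝ) ≤ 2 / (4 * cc j) + 1 := by
        rw [hn]
        push_cast
        have := Nat.floor_le (show 0 ≤ 2 / (4 * cc j) by positivity)
        linarith
      refine h1.trans ?_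
      have h2 : 1 ≤ 1 / cc j := by
        rw [le_div_iff₀ hcc, one_mul]
        exact cc_le_one j
      have h3 : 2 / (4 * cc j) = 1 / 2 * (1 / cc j) := by
        field_simp
        norm_num
      have h4 : 2 / cc j = 2 * (1 / cc j) := by ring
      rw [h3, h4]
      linarith
    have hn0 : (0 : ℝ) < n := by
      rw [hn]
      positivity
    have h5 : Real.log n ≤ Real.log (10 / (st j).1) + Real.log (bl j).N := by
      rw [← Real.log_mul (div_pos (by norm_num) (st_pos j)).ne' hNpos.ne']
      refine Real.log_le_log hn0 (hnR.trans (le_of_eq ?_))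
      rw [cc_eq]
      have := (st_pos j).ne'
      field_simp
      norm_num
    have h6 : Real.log n ≥ 0 := Real.log_natCast_nonneg _
    rw [Fintype.card_prod, Fintype.card_fin, Fintype.card_fun, Fintype.card_fin,
      Fintype.card_coe]
    push_cast
    rw [Real.log_mul hNpos.ne' (by positivity), Real.log_pow]
    have h7 : ((EE j).card : ℝ) ≤ (st j).2 := by exact_mod_cast card_EE j
    have h8 : ((EE j).card : ℝ) * Real.log n ≤
        (st j).2 * (Real.log (10 / (st j).1) + Real.log (bl j).N) :=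
      mul_le_mul h7 h5 h6 (Nat.cast_nonneg _)
    linarith

end Vale.Agent.P126.H584
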