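import Vale.Agent.P126.H584.Ops

/-!
# P126: covering numbers in metric spaces
-/

open Metric

namespace Vale.Agent.P126.H584

/-- `t` covers `A` with balls of radius `ε`. -/
def Cvr {V : Type} [PseudoMetricSpace V] (t : Finset V) (A : Set V) (ε : ℝ) : Prop :=
  A ⊆ ⋃ x ∈ t, closedBall x ε

theorem cvr_of_class {P V K : Type} [PseudoMetricSpace V] [Fintype K] (F : P → V) (Φ : P → K)
    {ρ : ℝ} (h : ∀ p q, Φ p = Φ q → dist (F p) (F q) ≤ ρ) :
    ∃ t : Finset V, t.card ≤ Fintype.card K ∧ Cvr t (Set.range F) ρ := by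
  classical
  have hch : ∀ k : {k : K // ∃ p, Φ p = k}, ∃ p, Φ p = k.1 := fun k => k.2
  choose g hg using hch
  refine ⟨Finset.univ.image fun k => F (g k), ?_, ?_⟩
  · exact Finset.card_image_le.trans ((Finset.card_univ).trans_le (Fintype.card_subtype_le _))
  · rintro _ ⟨p, rfl⟩
    simp only [Set.mem_iUnion, exists_prop, Finset.mem_image, Finset.mem_univ, true_and]
    exact ⟨_, ⟨⟨Φ p, p, rfl⟩, rfl⟩, h _ _ (hg ⟨Φ p, p, rfl⟩).symm⟩

variable {V : Type} [PseudoMetricSpace V]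

theorem ballCover_le {t : Finset V} {A : Set V} {ε : ℝ} (h : Cvr t A ε) :
    ballCover A ε ≤ t.card :=
  Nat.sInf_le ⟨t, rfl, h⟩

theorem exists_cvr_eq {A : Set V} {ε : ℝ} (h : ∃ t : Finset V, Cvr t A ε) :
    ∃ t : Finset V, Cvr t A ε ∧ t.card = ballCover A ε := by
  obtain ⟨t, ht⟩ := h
  have : ballCover A ε ∈ {m : ℕ | ∃ t : Finset V, t.card = m ∧ A ⊆ ⋃ x ∈ t, closedBall x ε} :=
    Nat.sInf_mem ⟨t.card, t, rfl, ht⟩
  obtain ⟨s, hs, hcov⟩ := this
  exact ⟨s, hcov, hs⟩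

theorem card_le_of_sep {n : ℕ} (s : ℕ → V) {t : Finset V} {A : Set V} {ε : ℝ}
    (hA : ∀ i < n, s i ∈ A) (hsep : ∀ i < n, ∀ j < n, i ≠ j → 2 * ε < dist (s i) (s j))
    (ht : Cvr t A ε) : n ≤ t.card := by
  classical
  have h : ∀ i : ℕ, ∃ c : V, i < n → c ∈ t ∧ dist (s i) c ≤ ε := by
    intro i
    by_cases hi : i < n
    · have := ht (hA i hi)
      simp only [Set.mem_iUnion, exists_prop, mem_closedBall] at this
      obtain ⟨c, hc, hic⟩ := this
      exact ⟨c, fun _ => ⟨hc, hic⟩⟩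
    · exact ⟨s 0, fun h => absurd h hi⟩
  choose c hc using h
  have : (Finset.range n).card ≤ t.card := by
    refine Finset.card_le_card_of_injOn c (fun i hi => (hc i (by simpa using hi)).1) ?_
    intro i hi j hj hij
    by_contra hne
    have hi' : i < n := by simpa using hi
    have hj' : j < n := by simpa using hj
    have h1 := (hc i hi').2
    have h2 := (hc j hj').2
    rw [← hij] at h2
    have h3 := dist_triangle_right (s i) (s j) (c i)
    linarith [hsep i hi' j hj' hne]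
  simpa using this

theorem le_ballCover {n : ℕ} (s : ℕ → V) {A : Set V} {ε : ℝ}
    (hA : ∀ i < n, s i ∈ A) (hsep : ∀ i < n, ∀ j < n, i ≠ j → 2 * ε < dist (s i) (s j))
    (ht : ∃ t : Finset V, Cvr t A ε) : n ≤ ballCover A ε := by
  obtain ⟨t, ht, he⟩ := exists_cvr_eq ht
  rw [← he]
  exact card_le_of_sep s hA hsep ht

theorem Cvr.mono {t : Finset V} {A : Set V} {ε δ : ℝ} (h : Cvr t A ε) (hle : ε ≤ δ) :
    Cvr t A δ := by
  refine h.trans ?_
  exact Set.iUnion₂_mono fun x _ => closedBall_subset_closedBall hle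

theorem totallyBounded_of_cvr {A : Set V} (h : ∀ ε > 0, ∃ t : Finset V, Cvr t A ε) :
    TotallyBounded A := by
  rw [Metric.totallyBounded_iff]
  intro ε hε
  obtain ⟨t, ht⟩ := h (ε / 2) (half_pos hε)
  refine ⟨t, t.finite_toSet, ht.trans ?_⟩
  exact Set.iUnion₂_mono fun x _ => closedBall_subset_ball (half_lt_self hε)

theorem compactCl {A : Set V} [CompleteSpace V] (h : ∀ ε > 0, ∃ t : Finset V, Cvr t A ε) :
    IsCompact (closure A) :=
  (totallyBounded_of_cvr h).closure.isCompact_of_isClosed isClosed_closure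

theorem compactOp {E F : Type} [NormedAddCommGroup E] [NormedSpace ℝ E] [NormedAddCommGroup F]
    [NormedSpace ℝ F] [CompleteSpace F] (T : E →L[ℝ] F)
    (h : ∀ ε > 0, ∃ t : Finset F, Cvr t (ballImage T) ε) : IsCompactOperator T :=
  (isCompactOperator_iff_isCompact_closure_image_closedBall (𝕜₁ := ℝ) (𝕜₂ := ℝ)
    (T : E →ₗ[ℝ] F) zero_lt_one).2 (compactCl h)

/-- the entropy number is small if a small cover exists -/
theorem entropyNum_le {A : Set V} {k : ℕ} {ε : ℝ} (hε : 0 ≤ ε) {t : Finset V}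
    (ht : Cvr t A ε) (hk : t.card ≤ 2 ^ (k - 1)) : entropyNum A k ≤ ε :=
  csInf_le ⟨0, fun _ hx => hx.1⟩ ⟨hε, t, hk, ht⟩

/-- the entropy number is large if there are many separated points -/
theorem le_entropyNum {A : Set V} {k n : ℕ} {ε : ℝ} (s : ℕ → V)
    (hA : ∀ i < n, s i ∈ A) (hsep : ∀ i < n, ∀ j < n, i ≠ j → 2 * ε ≤ dist (s i) (s j))
    (hk : 2 ^ (k - 1) < n) (hne : ∃ (ρ : ℝ) (x : V), 0 ≤ ρ ∧ A ⊆ closedBall x ρ) :
    ε ≤ entropyNum A k := by
  refine le_csInf ?_ ?_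
  · obtain ⟨ρ, x, hρ, hx⟩ := hne
    refine ⟨ρ, hρ, {x}, ?_, ?_⟩
    · simpa using Nat.one_le_two_pow
    · simpa using hx
  · rintro δ ⟨hδ, t, htk, ht⟩
    by_contra hlt
    rw [not_le] at hlt
    have := card_le_of_sep s hA (fun i hi j hj hij => lt_of_lt_of_le (by linarith)
      (hsep i hi j hj hij)) ht
    omega

end Vale.Agent.P126.H584
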