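import Vale.Agent.P126.H584.Cls
import Vale.Agent.P126.H584.Cov

/-!
# P126: the compact operator
-/

open Metric

namespace Vale.Agent.P126.H584

open Vale.Agent.P126 Vale.Agent.P126.CQ

/-- `n` is small compared to the size of block `j` -/
def Small (j n : ℕ) : Prop :=
  ∀ Y e : ℝ, Real.log (bl j).nX ≤ Y →
    e ≤ 1 / (2 * ((10 * 32 ^ ((Nat.unpair j).1 + 1) : ℕ) : ℝ)) → Real.log n ≤ Y ^ (1 - e)

/-- the operator -/
noncomputable def TT (ty : ℕ → Bool) : L1 →L[ℝ] Li := matOp (Mat ty) (Mat_le_one ty)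

theorem Small.mono {j n k : ℕ} (h : Small j n) (hk : k ≤ n) : Small j k := by
  intro Y e hY he
  refine le_trans ?_ (h Y e hY he)
  rcases Nat.eq_zero_or_pos k with h0 | h0
  · rw [h0]
    simpa only [CharP.cast_eq_zero, Real.log_zero] using Real.log_natCast_nonneg n
  · exact Real.log_le_log (by exact_mod_cast h0) (by exact_mod_cast hk)

theorem up_T (ty : ℕ → Bool) (j : ℕ) (hj : ty j = false) :
    ∃ t : Finset Li, Cvr t (ballImage (TT ty)) (4 * cc j) ∧ Small j t.card := by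
  obtain ⟨K, _, Φ, h1, h2⟩ := class_map (fun i => !ty i) j (by simp [hj])
    (P := {v : L1 // v ∈ closedBall (0 : L1) 1}) (fun v w => v.1 w)
    (fun v s => (L1.sum_le v.1 s).trans (mem_closedBall_zero_iff.1 v.2))
    (fun v r => TT ty v.1 r) (fun v r => by
      rw [TT, matOp_row (s := SS r)]
      · refine Finset.sum_congr rfl fun s _ => ?_
        rw [Mat_transpose]
      · intro s hs
        rw [Mat_transpose, Mat_zero _ hs])
  obtain ⟨t, ht1, ht2⟩ := cvr_of_class (V := Li) (fun v : {v : L1 // v ∈ closedBall (0 : L1) 1} =>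
    TT ty v.1) Φ (ρ := 4 * cc j) (fun p q hpq => by
      rw [dist_eq_norm]
      refine Li.norm_le (mul_pos (by norm_num) (cc_pos j)).le fun w => ?_
      have := h1 p q hpq w
      rwa [lp.coeFn_sub, Pi.sub_apply])
  refine ⟨t, ?_, fun Y e hY he => ?_⟩
  · intro y hy
    obtain ⟨v, hv, rfl⟩ := hy
    exact ht2 ⟨⟨v, hv⟩, rfl⟩
  · exact (Small.mono (j := j) (n := Fintype.card K) h2 ht1) Y e hY he

theorem adjoint_apply (T : L1 →L[ℝ] Li) (φ : StrongDual ℝ Li) (v : L1) :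
    adjointOp T φ v = φ (T v) := rfl

theorem up_Ts (ty : ℕ → Bool) (j : ℕ) (hj : ty j = true) :
    ∃ t : Finset (StrongDual ℝ L1), Cvr t (ballImage (adjointOp (TT ty))) (4 * cc j) ∧
      Small j t.card := by
  obtain ⟨K, _, Φ, h1, h2⟩ := class_map ty j hj
    (P := {φ : StrongDual ℝ Li // φ ∈ closedBall (0 : StrongDual ℝ Li) 1}) (fun φ w => φ.1 (ei w))
    (fun φ s => (dual_sum_le φ.1 s).trans (mem_closedBall_zero_iff.1 φ.2))
    (fun φ x => adjointOp (TT ty) φ.1 (e1 x)) (fun φ x => by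
      rw [adjoint_apply, TT, dual_matOp (s := SS x)]
      intro w hw
      rw [Mat_zero _ hw])
  obtain ⟨t, ht1, ht2⟩ := cvr_of_class (V := StrongDual ℝ L1)
    (fun φ : {φ : StrongDual ℝ Li // φ ∈ closedBall (0 : StrongDual ℝ Li) 1} =>
      adjointOp (TT ty) φ.1) Φ (ρ := 4 * cc j) (fun p q hpq => by
      rw [dist_eq_norm]
      refine dual_norm_le (mul_pos (by norm_num) (cc_pos j)).le fun x => ?_
      exact h1 p q hpq x)
  refine ⟨t, ?_, fun Y e hY he => ?_⟩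
  · intro y hy
    obtain ⟨v, hv, rfl⟩ := hy
    exact ht2 ⟨⟨v, hv⟩, rfl⟩
  · exact (Small.mono (j := j) (n := Fintype.card K) h2 ht1) Y e hY he

theorem Mat_sep {ty : ℕ → Bool} {j : ℕ} (hj : ty j = true) {x y : ℕ} (hx : x < (bl j).nX)
    (hy : y < (bl j).nX) (hxy : x ≠ y) :
    ∃ w, (Nat.unpair j).1 * cc j ≤ |Mat ty w (Nat.pair j x) - Mat ty w (Nat.pair j y)| := by
  obtain ⟨w, hw⟩ := (bl j).sep x hx y hy hxy
  refine ⟨Nat.pair j w, ?_⟩
  rw [Mat_pair hj, Mat_pair hj, ← mul_sub, abs_mul, abs_of_pos (cc_pos j), mul_comm]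
  exact mul_le_mul_of_nonneg_left hw (cc_pos j).le

theorem low_T (ty : ℕ → Bool) (j : ℕ) (hj : ty j = true) :
    ∃ s : ℕ → Li, (∀ i < (bl j).nX, s i ∈ ballImage (TT ty)) ∧
      ∀ i < (bl j).nX, ∀ k < (bl j).nX, i ≠ k → (Nat.unpair j).1 * cc j ≤ dist (s i) (s k) := by
  refine ⟨fun x => TT ty (e1 (Nat.pair j x)), fun x _ => ⟨e1 (Nat.pair j x), ?_, rfl⟩, ?_⟩
  · simpa using (norm_e1 _).le
  · intro x hx y hy hxy
    obtain ⟨w, hw⟩ := Mat_sep hj hx hy hxy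
    refine hw.trans ?_
    rw [dist_eq_norm]
    have h := Li.le_norm (TT ty (e1 (Nat.pair j x)) - TT ty (e1 (Nat.pair j y))) w
    rw [lp.coeFn_sub, Pi.sub_apply, TT, matOp_e1, matOp_e1] at h
    exact h

/-- evaluation -/
noncomputable def ev (r : ℕ) : StrongDual ℝ Li := lp.evalCLM ℝ (fun _ : ℕ => ℝ) ⊤ r

theorem ev_apply (r : ℕ) (u : Li) : ev r u = u r := rfl

theorem norm_ev (r : ℕ) : ‖ev r‖ ≤ 1 :=
  ContinuousLinearMap.opNorm_le_bound _ zero_le_one fun u => by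
    rw [one_mul, ev_apply, Real.norm_eq_abs]
    exact Li.le_norm u r

theorem low_Ts (ty : ℕ → Bool) (j : ℕ) (hj : ty j = false) :
    ∃ s : ℕ → StrongDual ℝ L1, (∀ i < (bl j).nX, s i ∈ ballImage (adjointOp (TT ty))) ∧
      ∀ i < (bl j).nX, ∀ k < (bl j).nX, i ≠ k → (Nat.unpair j).1 * cc j ≤ dist (s i) (s k) := by
  refine ⟨fun x => adjointOp (TT ty) (ev (Nat.pair j x)),
    fun x _ => ⟨ev (Nat.pair j x), ?_, rfl⟩, ?_⟩
  · simpa using norm_ev _
  · intro x hx y hy hxy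
    obtain ⟨w, hw⟩ := Mat_sep (ty := fun i => !ty i) (by simp [hj]) hx hy hxy
    refine hw.trans ?_
    rw [dist_eq_norm]
    have h := dual_le_norm (adjointOp (TT ty) (ev (Nat.pair j x)) -
      adjointOp (TT ty) (ev (Nat.pair j y))) w
    rw [sub_apply, adjoint_apply, adjoint_apply, ev_apply, ev_apply, TT,
      matOp_e1, matOp_e1, Mat_transpose, Mat_transpose ty (Nat.pair j y)] at h
    exact h

/-- the type of the blocks: even and odd repetitions -/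
def ty0 (j : ℕ) : Bool := (Nat.unpair j).2 % 2 == 0

theorem exists_index (a M δ : ℝ) (ha : 1 ≤ a) (hδ : 0 < δ) (i : ℕ) (hi : i < 2) :
    ∃ j : ℕ, (Nat.unpair j).1 = ⌈12 * a⌉₊ ∧ (Nat.unpair j).2 % 2 = i ∧
      M ≤ Real.log (bl j).nX ∧ ⌈12 * a⌉₊ * cc j < δ := by
  set κ := ⌈12 * a⌉₊ with hκ
  obtain ⟨k, hk⟩ : ∃ k : ℕ, k = ⌈|M|⌉₊ + ⌈κ / δ⌉₊ + 1 := ⟨_, rfl⟩
  have hkR : |M| + κ / δ + 1 ≤ k := by
    rw [hk]
    push_cast
    have h1 := Nat.le_ceil |M|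
    have h2 := Nat.le_ceil ((κ : ℝ) / δ)
    linarith
  have hκδ : 0 ≤ (κ : ℝ) / δ := by positivity
  have hM0 := abs_nonneg M
  refine ⟨Nat.pair κ (2 * k + i), by simp, by simp; omega, ?_, ?_⟩
  · have h1 := log_nX_ge (bl (Nat.pair κ (2 * k + i)))
    refine le_trans ?_ h1
    have h2 : 2 * k + i ≤ Nat.pair κ (2 * k + i) := Nat.right_le_pair _ _
    have h3 : 2 * k ≤ mreq (Nat.pair κ (2 * k + i)) (st (Nat.pair κ (2 * k + i))) +
        32 * ((Nat.unpair (Nat.pair κ (2 * k + i))).1 + 1) ^ 2 := by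
      have : Nat.pair κ (2 * k + i) ≤ mreq (Nat.pair κ (2 * k + i)) (st (Nat.pair κ (2 * k + i))) :=
        Nat.le_add_right _ _
      omega
    have h4 : (2 * k : ℝ) ≤ ((mreq (Nat.pair κ (2 * k + i)) (st (Nat.pair κ (2 * k + i))) +
        32 * ((Nat.unpair (Nat.pair κ (2 * k + i))).1 + 1) ^ 2 : ℕ) : ℝ) := by
      exact_mod_cast h3
    have h5 := le_abs_self M
    linarith
  · set j := Nat.pair κ (2 * k + i) with hj
    have h1 := cc_lt j
    have h2 : k ≤ j := by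
      have : 2 * k + i ≤ Nat.pair κ (2 * k + i) := Nat.right_le_pair _ _
      omega
    have h3 : (k : ℝ) ≤ j := by exact_mod_cast h2
    have h4 := cc_pos j
    have h5 : (κ : ℝ) / δ ≤ j := by linarith
    rw [div_le_iff₀ hδ] at h5
    calc (κ : ℝ) * cc j ≤ (j * δ) * cc j := mul_le_mul_of_nonneg_right h5 h4.le
      _ = (cc j * j) * δ := by ring
      _ < 1 * δ := mul_lt_mul_of_pos_right h1 hδ
      _ = δ := one_mul δ

theorem exp_bound (a : ℝ) (ha : 1 ≤ a) (j : ℕ) (hj : (Nat.unpair j).1 = ⌈12 * a⌉₊) :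
    Real.exp (-(60 * a)) ≤ 1 / (2 * ((10 * 32 ^ ((Nat.unpair j).1 + 1) : ℕ) : ℝ)) := by
  have h6 := final_exp_bound a ha
  rw [Real.exp_neg, ← one_div, hj]
  apply one_div_le_one_div_of_le (by positivity)
  refine le_trans ?_ h6
  push_cast
  have h7 : (0 : ℝ) < 32 ^ (⌈12 * a⌉₊ + 1) := by positivity
  linarith only [h7]

theorem exists_cc_lt (ε : ℝ) (hε : 0 < ε) (i : ℕ) (hi : i < 2) :
    ∃ j : ℕ, (Nat.unpair j).2 % 2 = i ∧ 4 * cc j ≤ ε := by
  obtain ⟨j, h1, h2, -, h4⟩ := exists_index 1 0 ε le_rfl hε i hi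
  refine ⟨j, h2, ?_⟩
  have h5 : (12 : ℝ) ≤ ⌈12 * (1 : ℝ)⌉₊ := by
    have := Nat.le_ceil (12 * (1 : ℝ))
    linarith
  have h6 := cc_pos j
  nlinarith

theorem fin_T (ε : ℝ) (hε : 0 < ε) : ∃ t : Finset Li, Cvr t (ballImage (TT ty0)) ε := by
  obtain ⟨j, h1, h2⟩ := exists_cc_lt ε hε 1 (by norm_num)
  obtain ⟨t, ht, -⟩ := up_T ty0 j (by simp [ty0, h1])
  exact ⟨t, ht.mono h2⟩

theorem fin_Ts (ε : ℝ) (hε : 0 < ε) :
    ∃ t : Finset (StrongDual ℝ L1), Cvr t (ballImage (adjointOp (TT ty0))) ε := by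
  obtain ⟨j, h1, h2⟩ := exists_cc_lt ε hε 0 (by norm_num)
  obtain ⟨t, ht, -⟩ := up_Ts ty0 j (by simp [ty0, h1])
  exact ⟨t, ht.mono h2⟩

theorem gap_of {V W : Type} [PseudoMetricSpace V] [PseudoMetricSpace W] (A : Set V) (B : Set W)
    (i : ℕ) (hi : i < 2) (hA : ∀ ε > 0, ∃ t : Finset V, Cvr t A ε)
    (hup : ∀ j, (Nat.unpair j).2 % 2 = i → ∃ t : Finset W, Cvr t B (4 * cc j) ∧ Small j t.card)
    (hlow : ∀ j, (Nat.unpair j).2 % 2 = i → ∃ s : ℕ → V, (∀ i < (bl j).nX, s i ∈ A) ∧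
      ∀ i < (bl j).nX, ∀ k < (bl j).nX, i ≠ k → (Nat.unpair j).1 * cc j ≤ dist (s i) (s k)) :
    CoverGap A B := by
  intro a M δ ha hδ
  obtain ⟨j, h1, h2, h3, h4⟩ := exists_index a M δ ha hδ i hi
  have hcc := cc_pos j
  have hκ : 12 * a ≤ (⌈12 * a⌉₊ : ℝ) := Nat.le_ceil _
  have hκ0 : (0 : ℝ) < ⌈12 * a⌉₊ := by linarith
  set κ : ℝ := (⌈12 * a⌉₊ : ℝ) with hκdef
  have hε0 : 0 < κ * cc j / 3 := by positivity
  obtain ⟨s, hs1, hs2⟩ := hlow j h2
  obtain ⟨t, ht, hsm⟩ := hup j h2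
  have hlowc : (bl j).nX ≤ ballCover A (κ * cc j / 3) := by
    refine le_ballCover s hs1 (fun x hx y hy hxy => ?_) (hA _ hε0)
    refine lt_of_lt_of_le ?_ (hs2 x hx y hy hxy)
    rw [h1]
    have : 0 < κ * cc j := by positivity
    linarith
  have hlog : Real.log (bl j).nX ≤ Real.log (ballCover A (κ * cc j / 3)) :=
    Real.log_le_log (by exact_mod_cast (bl j).nX_pos) (by exact_mod_cast hlowc)
  refine ⟨κ * cc j / 3, hε0, ?_, h3.trans hlog, ?_⟩
  · have : 0 < κ * cc j := by positivity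
    linarith
  · have hle : 4 * cc j ≤ κ * cc j / 3 / a := by
      rw [le_div_iff₀ (by linarith)]
      nlinarith
    exact (hsm.mono (ballCover_le (ht.mono hle))) _ _ hlog (exp_bound a ha j h1)

theorem gap_T : CoverGap (ballImage (TT ty0)) (ballImage (adjointOp (TT ty0))) :=
  gap_of _ _ 0 (by norm_num) (fun ε hε => fin_T ε hε)
    (fun j hj => up_Ts ty0 j (by simp [ty0, hj])) (fun j hj => low_T ty0 j (by simp [ty0, hj]))

theorem gap_Ts : CoverGap (ballImage (adjointOp (TT ty0))) (ballImage (TT ty0)) :=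
  gap_of _ _ 1 (by norm_num) (fun ε hε => fin_Ts ε hε)
    (fun j hj => up_T ty0 j (by simp [ty0, hj])) (fun j hj => low_Ts ty0 j (by simp [ty0, hj]))

end Vale.Agent.P126.H584
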