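import Vale.Agent.P126.Defs

/-!
# P126: the cube
-/

namespace Vale.Agent.P126

/-- The cube `[-r, r]ⁿ`. -/
def cube (n : ℕ) (r : ℝ) : Set (EuclideanSpace ℝ (Fin n)) :=
  {x | ∀ i, |x i| ≤ r}

end Vale.Agent.P126
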