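import Vale.Agent.P126.H584.Comp

/-!
# P126: entropy numbers
-/

open Metric

namespace Vale.Agent.P126.H584

open Vale.Agent.P126

theorem ballImage_bdd {E F : Type} [NormedAddCommGroup E] [NormedSpace ℝ E]
    [NormedAddCommGroup F] [NormedSpace ℝ F] (T : E →L[ℝ] F) :
    ∃ (ρ : ℝ) (x : F), 0 ≤ ρ ∧ ballImage T ⊆ closedBall x ρ := by
  refine ⟨‖T‖, 0, norm_nonneg _, ?_⟩
  rintro _ ⟨v, hv, rfl⟩
  rw [mem_closedBall_zero_iff] at hv ⊢
  calc ‖T v‖ ≤ ‖T‖ * ‖v‖ := T.le_opNorm v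
    _ ≤ ‖T‖ * 1 := mul_le_mul_of_nonneg_left hv (norm_nonneg _)
    _ = ‖T‖ := mul_one _

/-- the gap for covering numbers gives a gap for entropy numbers -/
theorem ent_of_gap {V W : Type} [PseudoMetricSpace V] [PseudoMetricSpace W] {A : Set V}
    {B : Set W} (h : CoverGap A B) (hbd : ∃ (ρ : ℝ) (x : V), 0 ≤ ρ ∧ A ⊆ closedBall x ρ)
    (hB : ∀ ε > 0, ∃ t : Finset W, Cvr t B ε) (a b : ℝ) (k0 : ℕ) (ha : 1 ≤ a) :
    ∃ k : ℕ, k0 ≤ k ∧ 1 ≤ k ∧ ∀ m : ℕ, 1 ≤ m →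
      (m : ℝ) ≤ b * (k : ℝ) ^ (1 + Real.exp (-(120 * a))) →
        a * entropyNum B k < entropyNum A m := by
  have ha0 : 0 < a := by linarith
  obtain ⟨e, he⟩ : ∃ e : ℝ, e = Real.exp (-(120 * a)) := ⟨_, rfl⟩
  have he0 : 0 < e := by rw [he]; exact Real.exp_pos _
  have he1 : e < 1 := by rw [he]; exact Real.exp_lt_one_iff.2 (by linarith)
  obtain ⟨Q, hQ⟩ : ∃ Q : ℝ, Q = |b| * ((k0 : ℝ) + 4) ^ 2 + 1 := ⟨_, rfl⟩
  have hQ1 : 1 ≤ Q := by rw [hQ]; have := abs_nonneg b; nlinarith [sq_nonneg ((k0 : ℝ) + 4)]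
  obtain ⟨ε, hε0, -, hM, hlog⟩ := h (2 * a) (Q ^ (1 / (e ^ 2))) 1 (by linarith) one_pos
  rw [show -(60 * (2 * a)) = -(120 * a) by ring, ← he] at hlog
  rw [← he]
  set Y := Real.log (ballCover A ε) with hY
  have hY1 : 1 ≤ Y := (Real.one_le_rpow hQ1 (by positivity)).trans hM
  have hY0 : 0 < Y := by linarith
  have hYQ : Q ≤ Y ^ (e ^ 2) := by
    have h1 : (Q ^ (1 / (e ^ 2))) ^ (e ^ 2) ≤ Y ^ (e ^ 2) :=
      Real.rpow_le_rpow (by positivity) hM (by positivity)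
    rwa [← Real.rpow_mul (by linarith), one_div_mul_cancel (by positivity), Real.rpow_one] at h1
  set Z := Y ^ (1 - e) with hZ
  have hZ1 : 1 ≤ Z := Real.one_le_rpow hY1 (by linarith)
  have hl2 : 1 / 2 < Real.log 2 := by
    have := Real.log_two_gt_d9
    linarith
  have hl2' : Real.log 2 < 1 := by
    have := Real.log_two_lt_d9
    linarith
  obtain ⟨c, hc⟩ : ∃ c : ℕ, c = ⌈2 * Z⌉₊ := ⟨_, rfl⟩
  have hc1 : 2 * Z ≤ c := by rw [hc]; exact Nat.le_ceil _
  have hc2 : (c : ℝ) ≤ 2 * Z + 1 := by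
    rw [hc]
    exact (Nat.ceil_lt_add_one (by linarith)).le
  -- covering numbers
  have hA1 : 1 ≤ ballCover A ε := by
    by_contra hlt
    have : ballCover A ε = 0 := by omega
    rw [this] at hY
    simp only [CharP.cast_eq_zero, Real.log_zero] at hY
    linarith
  obtain ⟨t, ht, htc⟩ := exists_cvr_eq (hB (ε / (2 * a)) (by positivity))
  have hcard : t.card ≤ 2 ^ c := by
    rw [htc]
    rcases Nat.eq_zero_or_pos (ballCover B (ε / (2 * a))) with h0 | h0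
    · rw [h0]; exact Nat.zero_le _
    · have h1 : Real.log (ballCover B (ε / (2 * a))) ≤ Real.log ((2 : ℝ) ^ c) := by
        rw [Real.log_pow]
        calc Real.log (ballCover B (ε / (2 * a))) ≤ Z := hlog
          _ = (2 * Z) * (1 / 2) := by ring
          _ ≤ c * Real.log 2 := mul_le_mul hc1 hl2.le (by norm_num) (Nat.cast_nonneg _)
      have h2 := (Real.log_le_log_iff (by exact_mod_cast h0) (by positivity)).1 h1
      exact_mod_cast h2
  refine ⟨k0 + 1 + c, by omega, by omega, fun m _ hm => ?_⟩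
  have hk : ((k0 + 1 + c : ℕ) : ℝ) ≤ ((k0 : ℝ) + 4) * Z := by
    push_cast
    have : (0 : ℝ) ≤ k0 := Nat.cast_nonneg _
    nlinarith
  have hmY : (m : ℝ) ≤ Y := by
    have hk0' : (0 : ℝ) ≤ k0 := Nat.cast_nonneg _
    have h1 : ((k0 + 1 + c : ℕ) : ℝ) ^ (1 + e) ≤ (((k0 : ℝ) + 4) * Z) ^ (1 + e) :=
      Real.rpow_le_rpow (Nat.cast_nonneg _) hk (by linarith)
    have h2 : (((k0 : ℝ) + 4) * Z) ^ (1 + e) ≤ ((k0 : ℝ) + 4) ^ 2 * Y ^ (1 - e ^ 2) := by
      rw [Real.mul_rpow (by linarith) (by linarith)]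
      have h3 : ((k0 : ℝ) + 4) ^ (1 + e) ≤ ((k0 : ℝ) + 4) ^ 2 := by
        rw [← Real.rpow_natCast]
        exact Real.rpow_le_rpow_of_exponent_le (by linarith) (by push_cast; linarith)
      have h4 : Z ^ (1 + e) = Y ^ (1 - e ^ 2) := by
        rw [hZ, ← Real.rpow_mul hY0.le]
        congr 1
        ring
      rw [h4]
      exact mul_le_mul_of_nonneg_right h3 (by positivity)
    have h5 : 0 ≤ ((k0 + 1 + c : ℕ) : ℝ) ^ (1 + e) := by positivity
    calc (m : ℝ) ≤ b * ((k0 + 1 + c : ℕ) : ℝ) ^ (1 + e) := hm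
      _ ≤ |b| * ((k0 + 1 + c : ℕ) : ℝ) ^ (1 + e) :=
          mul_le_mul_of_nonneg_right (le_abs_self b) h5
      _ ≤ |b| * (((k0 : ℝ) + 4) ^ 2 * Y ^ (1 - e ^ 2)) :=
          mul_le_mul_of_nonneg_left (h1.trans h2) (abs_nonneg b)
      _ = (|b| * ((k0 : ℝ) + 4) ^ 2) * Y ^ (1 - e ^ 2) := by ring
      _ ≤ Y ^ (e ^ 2) * Y ^ (1 - e ^ 2) :=
          mul_le_mul_of_nonneg_right (by linarith) (by positivity)
      _ = Y := by
          rw [← Real.rpow_add hY0]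
          norm_num
  have hent : ε ≤ entropyNum A m := by
    refine le_csInf ?_ ?_
    · obtain ⟨ρ, x, hρ, hx⟩ := hbd
      refine ⟨ρ, hρ, {x}, ?_, ?_⟩
      · simpa using Nat.one_le_two_pow
      · simpa using hx
    · rintro δ ⟨hδ, u, huk, hu⟩
      by_contra hlt
      rw [not_le] at hlt
      have h1 : ballCover A ε ≤ u.card := ballCover_le (Cvr.mono hu hlt.le)
      have h2 : ballCover A ε ≤ 2 ^ (m - 1) := h1.trans huk
      have h3 : Y ≤ Real.log ((2 : ℝ) ^ (m - 1)) :=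
        Real.log_le_log (by exact_mod_cast hA1) (by exact_mod_cast h2)
      rw [Real.log_pow] at h3
      have h4 : ((m - 1 : ℕ) : ℝ) ≤ m := by exact_mod_cast Nat.sub_le m 1
      rcases Nat.eq_zero_or_pos m with h0 | h0
      · rw [h0] at h3
        simp only [Nat.zero_sub, CharP.cast_eq_zero, zero_mul] at h3
        linarith
      · have h5 : ((m - 1 : ℕ) : ℝ) * Real.log 2 ≤ ((m - 1 : ℕ) : ℝ) * 1 :=
          mul_le_mul_of_nonneg_left hl2'.le (Nat.cast_nonneg _)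
        have h6 : ((m - 1 : ℕ) : ℝ) = m - 1 := by
          rw [Nat.cast_sub h0]
          norm_num
        rw [h6] at h3 h5
        linarith
  have hentB : entropyNum B (k0 + 1 + c) ≤ ε / (2 * a) := by
    refine entropyNum_le (by positivity) ht (hcard.trans ?_)
    exact Nat.pow_le_pow_right (by norm_num) (by omega)
  calc a * entropyNum B (k0 + 1 + c) ≤ a * (ε / (2 * a)) :=
        mul_le_mul_of_nonneg_left hentB ha0.le
    _ = ε / 2 := by field_simp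
    _ < ε := half_lt_self hε0
    _ ≤ _ := hent

end Vale.Agent.P126.H584
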