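import Vale.Agent.P126.Defs
import Mathlib.Analysis.Normed.Lp.lpSpace
import Mathlib.Analysis.Normed.Operator.Compact.Basic

/-!
# P126: covering numbers and entropy numbers of operators
-/

open Pointwise

namespace Vale.Agent.P126

/-- The duality conjecture for metric entropy (Q1). -/
def DualityConjecture : Prop :=
  ∃ a b : ℝ, 1 ≤ a ∧ 1 ≤ b ∧ ∀ n : ℕ, 1 ≤ n → ∀ K L : Set (EuclideanSpace ℝ (Fin n)),
    IsSymmBody K → IsSymmBody L →
      1 / b * Real.log (coveringNumber (polarBody L) (a • polarBody K)) ≤
          Real.log (coveringNumber K L) ∧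
      Real.log (coveringNumber K L) ≤
        b * Real.log (coveringNumber (polarBody L) (a⁻¹ • polarBody K))

/-- The least number of closed balls of radius `ε` whose union contains `A`. -/
noncomputable def ballCover {V : Type} [PseudoMetricSpace V] (A : Set V) (ε : ℝ) : ℕ :=
  sInf {m : ℕ | ∃ t : Finset V, t.card = m ∧ A ⊆ ⋃ x ∈ t, Metric.closedBall x ε}

/-- The `k`-th entropy number of `A`, `k ≥ 1`: the infimum of all `ε ≥ 0` such that `A` is covered
by at most `2 ^ (k - 1)` closed balls of radius `ε`. -/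
noncomputable def entropyNum {V : Type} [PseudoMetricSpace V] (A : Set V) (k : ℕ) : ℝ :=
  sInf {ε : ℝ | 0 ≤ ε ∧ ∃ t : Finset V, t.card ≤ 2 ^ (k - 1) ∧
    A ⊆ ⋃ x ∈ t, Metric.closedBall x ε}

/-- The image of the closed unit ball under `T`. -/
def ballImage {E F : Type} [NormedAddCommGroup E] [NormedSpace ℝ E] [NormedAddCommGroup F]
    [NormedSpace ℝ F] (T : E →L[ℝ] F) : Set F :=
  T '' Metric.closedBall 0 1

/-- The image of the closed unit ball of `F*` under the adjoint operator `T* : F* → E*`,
`φ ↦ φ ∘ T`. -/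
def dualBallImage {E F : Type} [NormedAddCommGroup E] [NormedSpace ℝ E] [NormedAddCommGroup F]
    [NormedSpace ℝ F] (T : E →L[ℝ] F) : Set (StrongDual ℝ E) :=
  (fun φ : StrongDual ℝ F => φ.comp T) '' Metric.closedBall 0 1

/-- For every factor `a ≥ 1` there are arbitrarily small scales `ε` at which the entropy of `A` is
as large as one likes, and the entropy of `B` even at the scale `ε / a` is smaller by a power. -/
def CoverGap {V W : Type} [PseudoMetricSpace V] [PseudoMetricSpace W] (A : Set V) (B : Set W) :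
    Prop :=
  ∀ a M δ : ℝ, 1 ≤ a → 0 < δ → ∃ ε : ℝ, 0 < ε ∧ ε < δ ∧ M ≤ Real.log (ballCover A ε) ∧
    Real.log (ballCover B (ε / a)) ≤ (Real.log (ballCover A ε)) ^ (1 - Real.exp (-(60 * a)))

/-- The same for entropy numbers: for all `a ≥ 1` and `b` there are arbitrarily large `k` such
that `a` times the `k`-th entropy number of `B` is smaller than the `m`-th entropy number of `A`
for all `m ≤ b k ^ (1 + exp (-120 a))`. -/
def EntropyGap {V W : Type} [PseudoMetricSpace V] [PseudoMetricSpace W] (A : Set V) (B : Set W) :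
    Prop :=
  ∀ (a b : ℝ) (k₀ : ℕ), 1 ≤ a → ∃ k : ℕ, k₀ ≤ k ∧ 1 ≤ k ∧ ∀ m : ℕ, 1 ≤ m →
    (m : ℝ) ≤ b * (k : ℝ) ^ (1 + Real.exp (-(120 * a))) →
      a * entropyNum B k < entropyNum A m

/-- There is one compact operator `T : E → F` (whose adjoint `T*` is compact as well) such that the
duality of metric entropy fails for `T` and `T*` in both directions, for covering numbers and for
entropy numbers. -/
def DualityFailsBetween (E F : Type) [NormedAddCommGroup E] [NormedSpace ℝ E]
    [NormedAddCommGroup F] [NormedSpace ℝ F] : Prop :=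
  ∃ T : E →L[ℝ] F,
    IsCompactOperator T ∧ IsCompact (closure (dualBallImage T)) ∧
    CoverGap (ballImage T) (dualBallImage T) ∧ CoverGap (dualBallImage T) (ballImage T) ∧
    EntropyGap (ballImage T) (dualBallImage T) ∧ EntropyGap (dualBallImage T) (ballImage T)

end Vale.Agent.P126
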