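import Vale.Agent.P126.H584.Defs
import Vale.Agent.P126.Bdl.B1

/-!
# P126: power loss on both sides
-/

open Pointwise

namespace Vale.Agent.P126.H584

open Vale.Agent.P126 Vale.Agent.P126.CQ

theorem core2 : Core2 :=
  core2_of_claim2 fun k => Nat.rec claim2_zero (fun k h => claim2_succ k h) k

/-- The right hand inequality loses a power, already for cubes `L`. -/
theorem gap_right (a M : ℝ) (ha : 1 ≤ a) :
    ∃ (n : ℕ) (r : ℝ) (K : Set (EuclideanSpace ℝ (Fin n))), 1 ≤ n ∧ 0 < r ∧ IsSymmBody K ∧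
      IsSymmBody (cube n r) ∧ M ≤ Real.log (coveringNumber K (cube n r)) ∧
      Real.log (coveringNumber (polarBody (cube n r)) (a⁻¹ • polarBody K)) ≤
        (Real.log (coveringNumber K (cube n r))) ^ (1 - Real.exp (-(60 * a))) := by
  obtain ⟨n, hn, K, r, hr, hK, hQ, hM, h⟩ := power_gap core2 a ha M
  exact ⟨n, r, K, hn, hr, hK, hQ, hM, h⟩

/-- Scaling both bodies does not decrease the covering number. -/
theorem cov_le_smul {n : ℕ} {K Q : Set (EuclideanSpace ℝ (Fin n))} (hK : IsSymmBody K)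
    (hQ : IsSymmBody Q) {a : ℝ} (ha : 0 < a) :
    coveringNumber K Q ≤ coveringNumber (a • K) (a • Q) := by
  have h := coveringNumber_smul_le (A := a • K) (B := a • Q) (inv_ne_zero ha.ne')
    (exists_cov_of_compact (hK.smul ha.ne').compact (hQ.smul ha.ne').zero_mem_interior)
  rwa [inv_smul_smul₀ ha.ne', inv_smul_smul₀ ha.ne'] at h

/-- The left hand inequality loses a power, already for cross-polytopes `K`. -/
theorem gap_left (a M : ℝ) (ha : 1 ≤ a) :
    ∃ (n : ℕ) (r : ℝ) (L : Set (EuclideanSpace ℝ (Fin n))), 1 ≤ n ∧ 0 < r ∧ IsSymmBody L ∧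
      IsSymmBody (polarBody (cube n r)) ∧
      M ≤ Real.log (coveringNumber (polarBody L) (a • polarBody (polarBody (cube n r)))) ∧
      Real.log (coveringNumber (polarBody (cube n r)) L) ≤
        (Real.log (coveringNumber (polarBody L) (a • polarBody (polarBody (cube n r))))) ^
          (1 - Real.exp (-(60 * a))) := by
  have ha0 : 0 < a := by linarith
  obtain ⟨n, r, K, hn, hr, hK, hQ, hM, h⟩ := gap_right a M ha
  have e1 : polarBody (a⁻¹ • polarBody K) = a • K := by
    rw [polar_smul _ (inv_pos.2 ha0), inv_inv, bipolar hK]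
  have e2 : polarBody (polarBody (cube n r)) = cube n r := bipolar hQ
  have h1 : Real.log (coveringNumber K (cube n r)) ≤
      Real.log (coveringNumber (a • K) (a • cube n r)) :=
    Real.log_le_log (by exact_mod_cast coveringNumber_pos hK hQ)
      (by exact_mod_cast cov_le_smul hK hQ ha0)
  have hexp : 0 ≤ 1 - Real.exp (-(60 * a)) := by
    have : Real.exp (-(60 * a)) ≤ 1 := Real.exp_le_one_iff.2 (by linarith)
    linarith
  refine ⟨n, r, a⁻¹ • polarBody K, hn, hr, hK.polar.smul (inv_ne_zero ha0.ne'), hQ.polar, ?_, ?_⟩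
  · rw [e1, e2]; exact hM.trans h1
  · rw [e1, e2]
    exact h.trans (Real.rpow_le_rpow (Real.log_natCast_nonneg _) h1 hexp)

/-- Counterexamples to the right hand inequality, with a bound for the dimension. -/
theorem dim_right (a b : ℝ) (ha : 1 ≤ a) (hb : 1 ≤ b) :
    ∃ (n : ℕ) (r : ℝ) (K : Set (EuclideanSpace ℝ (Fin n))), 1 ≤ n ∧ 0 < r ∧ IsSymmBody K ∧
      IsSymmBody (cube n r) ∧ Real.log n ≤ (80 * a * b) ^ Real.exp (60 * a) ∧
      b * Real.log (coveringNumber (polarBody (cube n r)) (a⁻¹ • polarBody K)) <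
        Real.log (coveringNumber K (cube n r)) := by
  obtain ⟨n, hn, K, r, hr, hK, hQ, hM, h⟩ := dim_bound core2 a b ha hb
  exact ⟨n, r, K, hn, hr, hK, hQ, hM, h⟩

/-- Counterexamples to both inequalities, with a bound for the dimension. -/
theorem dim_both (a b : ℝ) (ha : 1 ≤ a) (hb : 1 ≤ b) :
    ∃ (n : ℕ) (r : ℝ) (K L : Set (EuclideanSpace ℝ (Fin n))), 1 ≤ n ∧ 0 < r ∧
      Real.log n ≤ (80 * a * b) ^ Real.exp (60 * a) ∧
      IsSymmBody K ∧ IsSymmBody L ∧ IsSymmBody (cube n r) ∧ IsSymmBody (polarBody (cube n r)) ∧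
      b * Real.log (coveringNumber (polarBody (cube n r)) (a⁻¹ • polarBody K)) <
        Real.log (coveringNumber K (cube n r)) ∧
      Real.log (coveringNumber (polarBody (cube n r)) L) <
        1 / b * Real.log (coveringNumber (polarBody L)
          (a • polarBody (polarBody (cube n r)))) := by
  have ha0 : 0 < a := by linarith
  have hb0 : 0 < b := by linarith
  obtain ⟨n, r, K, hn, hr, hK, hQ, hM, h⟩ := dim_right a b ha hb
  have e1 : polarBody (a⁻¹ • polarBody K) = a • K := by
    rw [polar_smul _ (inv_pos.2 ha0), inv_inv, bipolar hK]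
  have e2 : polarBody (polarBody (cube n r)) = cube n r := bipolar hQ
  have h1 : Real.log (coveringNumber K (cube n r)) ≤
      Real.log (coveringNumber (a • K) (a • cube n r)) :=
    Real.log_le_log (by exact_mod_cast coveringNumber_pos hK hQ)
      (by exact_mod_cast cov_le_smul hK hQ ha0)
  refine ⟨n, r, K, a⁻¹ • polarBody K, hn, hr, hM, hK, hK.polar.smul (inv_ne_zero ha0.ne'), hQ,
    hQ.polar, h, ?_⟩
  rw [e1, e2, one_div, lt_inv_mul_iff₀ hb0]
  exact h.trans_le h1

end Vale.Agent.P126.H584
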