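import Vale.Agent.P126.H584.EntDefs

/-!
# P126: operators from `ℓ¹` to `ℓ^∞` given by a bounded matrix
-/

open scoped ENNReal

namespace Vale.Agent.P126.H584

/-- The adjoint operator `T* : F* → E*`, `φ ↦ φ ∘ T`. -/
noncomputable def adjointOp {E F : Type} [NormedAddCommGroup E] [NormedSpace ℝ E]
    [NormedAddCommGroup F] [NormedSpace ℝ F] (T : E →L[ℝ] F) :
    StrongDual ℝ F →L[ℝ] StrongDual ℝ E :=
  (ContinuousLinearMap.compL ℝ E F ℝ).flip T

theorem dualBallImage_eq {E F : Type} [NormedAddCommGroup E] [NormedSpace ℝ E]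
    [NormedAddCommGroup F] [NormedSpace ℝ F] (T : E →L[ℝ] F) :
    dualBallImage T = ballImage (adjointOp T) := rfl

/-- `ℓ¹` -/
abbrev L1 := lp (fun _ : ℕ => ℝ) 1

/-- `ℓ^∞` -/
abbrev Li := lp (fun _ : ℕ => ℝ) ⊤

theorem L1.hasSum (v : L1) : HasSum (fun x => |v x|) ‖v‖ := by
  have h := lp.hasSum_norm (p := 1) (by simp) v
  simpa using h

theorem L1.sum_le (v : L1) (s : Finset ℕ) : ∑ w ∈ s, |v w| ≤ ‖v‖ :=
  sum_le_hasSum s (fun _ _ => abs_nonneg _) (L1.hasSum v)

theorem row_summable (a : ℕ → ℝ) {B : ℝ} (ha : ∀ x, |a x| ≤ B) (v : L1) :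
    Summable fun x => a x * v x := by
  refine Summable.of_norm_bounded (g := fun x => B * |v x|) ((L1.hasSum v).summable.mul_left B) ?_
  intro x
  rw [Real.norm_eq_abs, abs_mul]
  exact mul_le_mul_of_nonneg_right (ha x) (abs_nonneg _)

theorem row_bound (a : ℕ → ℝ) {B : ℝ} (ha : ∀ x, |a x| ≤ B) (v : L1) :
    |∑' x, a x * v x| ≤ B * ‖v‖ := by
  have h := tsum_of_norm_bounded (f := fun x => a x * v x) (g := fun x => B * |v x|)
    ((L1.hasSum v).mul_left B) (fun x => by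
      rw [Real.norm_eq_abs, abs_mul]
      exact mul_le_mul_of_nonneg_right (ha x) (abs_nonneg _))
  simpa [Real.norm_eq_abs] using h

/-- the operator with matrix `A` -/
noncomputable def matOp (A : ℕ → ℕ → ℝ) (hA : ∀ w x, |A w x| ≤ 1) : L1 →L[ℝ] Li :=
  LinearMap.mkContinuous
    { toFun := fun v => ⟨fun w => ∑' x, A w x * v x, memℓp_infty ⟨‖v‖, by
        rintro _ ⟨w, rfl⟩
        have := row_bound (A w) (hA w) v
        simpa using this⟩⟩
      map_add' := by
        intro u v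
        apply lp.ext
        funext w
        change ∑' x, A w x * (u + v : L1) x = ∑' x, A w x * u x + ∑' x, A w x * v x
        rw [← (row_summable (A w) (hA w) u).tsum_add (row_summable (A w) (hA w) v)]
        refine tsum_congr fun x => ?_
        rw [lp.coeFn_add]
        simp only [Pi.add_apply]
        ring
      map_smul' := by
        intro c v
        apply lp.ext
        funext w
        change ∑' x, A w x * (c • v : L1) x = c * ∑' x, A w x * v x
        rw [← tsum_mul_left]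
        refine tsum_congr fun x => ?_
        rw [lp.coeFn_smul]
        simp only [Pi.smul_apply, smul_eq_mul]
        ring }
    1 (fun v => by
      refine lp.norm_le_of_forall_le (by positivity) fun w => ?_
      have := row_bound (A w) (hA w) v
      simpa using this)

theorem matOp_apply (A : ℕ → ℕ → ℝ) (hA : ∀ w x, |A w x| ≤ 1) (v : L1) (w : ℕ) :
    matOp A hA v w = ∑' x, A w x * v x := rfl

/-- unit vectors of `ℓ¹` -/
noncomputable def e1 (x : ℕ) : L1 := lp.single 1 x 1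

/-- unit vectors of `ℓ^∞` -/
noncomputable def ei (x : ℕ) : Li := lp.single ⊤ x 1

theorem norm_e1 (x : ℕ) : ‖e1 x‖ = 1 := by
  rw [e1, lp.norm_single (by simp)]
  simp

theorem matOp_e1 (A : ℕ → ℕ → ℝ) (hA : ∀ w x, |A w x| ≤ 1) (x w : ℕ) :
    matOp A hA (e1 x) w = A w x := by
  rw [matOp_apply, tsum_eq_single x]
  · simp [e1]
  · intro y hy
    rw [e1, lp.single_apply_ne _ _ _ hy, mul_zero]

theorem Li.norm_le {u : Li} {r : ℝ} (hr : 0 ≤ r) (h : ∀ w, |u w| ≤ r) : ‖u‖ ≤ r :=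
  lp.norm_le_of_forall_le hr h

theorem Li.le_norm (u : Li) (w : ℕ) : |u w| ≤ ‖u‖ :=
  lp.norm_apply_le_norm (by simp) u w

theorem dual_norm_le {ψ : StrongDual ℝ L1} {r : ℝ} (hr : 0 ≤ r) (h : ∀ x, |ψ (e1 x)| ≤ r) :
    ‖ψ‖ ≤ r := by
  refine ψ.opNorm_le_bound hr fun v => ?_
  have h1 : HasSum (fun x => ψ (lp.single 1 x (v x))) (ψ v) :=
    (lp.hasSum_single (by simp) v).mapL ψ
  have h2 : (fun x => ψ (lp.single 1 x (v x))) = fun x => v x * ψ (e1 x) := by
    funext x
    have : lp.single (E := fun _ : ℕ => ℝ) 1 x (v x) = v x • e1 x := by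
      rw [e1, ← lp.single_smul]
      simp
    rw [this, map_smul, smul_eq_mul]
  rw [h2] at h1
  have h3 := tsum_of_norm_bounded (f := fun x => v x * ψ (e1 x)) (g := fun x => r * |v x|)
    ((L1.hasSum v).mul_left r) (fun x => by
      rw [Real.norm_eq_abs, abs_mul, mul_comm]
      exact mul_le_mul_of_nonneg_right (h x) (abs_nonneg _))
  rw [h1.tsum_eq] at h3
  exact h3

theorem dual_le_norm (ψ : StrongDual ℝ L1) (x : ℕ) : |ψ (e1 x)| ≤ ‖ψ‖ := by
  have := ψ.le_opNorm (e1 x)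
  rwa [norm_e1, mul_one, Real.norm_eq_abs] at this

theorem Li.finset_sum_apply (s : Finset ℕ) (c : ℕ → ℝ) (w : ℕ) :
    (∑ i ∈ s, c i • ei i : Li) w = if w ∈ s then c w else 0 := by
  rw [lp.coeFn_sum, Finset.sum_apply]
  have : ∀ i ∈ s, (c i • ei i : Li) w = if w = i then c i else 0 := by
    intro i _
    rw [lp.coeFn_smul, Pi.smul_apply, ei, smul_eq_mul]
    by_cases h : w = i
    · subst h
      simp
    · rw [lp.single_apply_ne _ _ _ h, if_neg h, mul_zero]
  rw [Finset.sum_congr rfl this, Finset.sum_ite_eq]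

theorem dual_sum_le (φ : StrongDual ℝ Li) (s : Finset ℕ) : ∑ w ∈ s, |φ (ei w)| ≤ ‖φ‖ := by
  set c : ℕ → ℝ := fun w => SignType.sign (φ (ei w)) with hc
  have h1 : ∑ w ∈ s, |φ (ei w)| = φ (∑ w ∈ s, c w • ei w) := by
    rw [map_sum]
    refine Finset.sum_congr rfl fun w _ => ?_
    rw [map_smul, smul_eq_mul, hc]
    exact (sign_mul_self _).symm
  have h2 : ‖(∑ w ∈ s, c w • ei w : Li)‖ ≤ 1 := by
    refine Li.norm_le zero_le_one fun w => ?_
    rw [Li.finset_sum_apply]
    split_ifs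
    · rw [hc]
      rcases lt_trichotomy (φ (ei w)) 0 with h | h | h
      · simp [h]
      · simp [h]
      · simp [h]
    · simp
  have h3 := φ.le_opNorm (∑ w ∈ s, c w • ei w)
  rw [h1]
  calc φ (∑ w ∈ s, c w • ei w) ≤ ‖φ (∑ w ∈ s, c w • ei w)‖ := le_abs_self _
    _ ≤ ‖φ‖ * ‖(∑ w ∈ s, c w • ei w : Li)‖ := h3
    _ ≤ ‖φ‖ * 1 := mul_le_mul_of_nonneg_left h2 (norm_nonneg _)
    _ = ‖φ‖ := mul_one _

/-- the adjoint on unit vectors, for a finitely supported column -/
theorem dual_matOp (A : ℕ → ℕ → ℝ) (hA : ∀ w x, |A w x| ≤ 1) (φ : StrongDual ℝ Li) (x : ℕ)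
    (s : Finset ℕ) (hs : ∀ w, w ∉ s → A w x = 0) :
    φ (matOp A hA (e1 x)) = ∑ w ∈ s, φ (ei w) * A w x := by
  have h : matOp A hA (e1 x) = ∑ w ∈ s, A w x • ei w := by
    apply lp.ext
    funext w
    rw [matOp_e1, Li.finset_sum_apply]
    split_ifs with hw
    · rfl
    · exact hs w hw
  rw [h, map_sum]
  refine Finset.sum_congr rfl fun w _ => ?_
  rw [map_smul, smul_eq_mul, mul_comm]

/-- the coordinates of `T v` for a finitely supported row -/
theorem matOp_row (A : ℕ → ℕ → ℝ) (hA : ∀ w x, |A w x| ≤ 1) (v : L1) (w : ℕ)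
    (s : Finset ℕ) (hs : ∀ x, x ∉ s → A w x = 0) :
    matOp A hA v w = ∑ x ∈ s, v x * A w x := by
  rw [matOp_apply, tsum_eq_sum (s := s)]
  · exact Finset.sum_congr rfl fun x _ => mul_comm _ _
  · intro x hx
    rw [hs x hx, zero_mul]

end Vale.Agent.P126.H584
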