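import Vale.Agent.P126.H584.Blk

/-!
# P126: the block diagonal matrix
-/

namespace Vale.Agent.P126.H584

open Vale.Agent.P126 Vale.Agent.P126.CQ

/-- the block with parameters `κ` and `m + 32 (κ + 1)²` -/
noncomputable def theBlk (κ m : ℕ) : Blk κ (m + 32 * (κ + 1) ^ 2) :=
  (exists_blk κ (m + 32 * (κ + 1) ^ 2) (Nat.le_add_left _ _)).some

/-- the required size of `m` -/
noncomputable def mreq (j : ℕ) (s : ℝ × ℕ) : ℕ :=
  j + 32 * ((s.2 + 1) * (⌈Real.log (10 / s.1)⌉₊ + 1)) ^ 2

/-- scale and number of coordinates before step `j` -/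
noncomputable def st : ℕ → ℝ × ℕ
  | 0 => (1, 0)
  | j + 1 => ((st j).1 / (5 * (theBlk (Nat.unpair j).1 (mreq j (st j))).N),
      (st j).2 + ((theBlk (Nat.unpair j).1 (mreq j (st j))).nW +
        (theBlk (Nat.unpair j).1 (mreq j (st j))).nX))

/-- the `j`-th block -/
noncomputable def bl (j : ℕ) :
    Blk (Nat.unpair j).1 (mreq j (st j) + 32 * ((Nat.unpair j).1 + 1) ^ 2) :=
  theBlk (Nat.unpair j).1 (mreq j (st j))

/-- the scale of the `j`-th block -/
noncomputable def cc (j : ℕ) : ℝ := (st (j + 1)).1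

/-- a bound for both sides of the `j`-th block -/
noncomputable def RR (j : ℕ) : ℕ := (bl j).nW + (bl j).nX

theorem cc_eq (j : ℕ) : cc j = (st j).1 / (5 * (bl j).N) := rfl

theorem st_snd (j : ℕ) : (st (j + 1)).2 = (st j).2 + RR j := rfl

theorem N_pos (j : ℕ) : (0 : ℝ) < (bl j).N := by exact_mod_cast (bl j).N_pos

theorem one_le_N (j : ℕ) : (1 : ℝ) ≤ (bl j).N := by exact_mod_cast (bl j).N_pos

theorem st_pos (j : ℕ) : 0 < (st j).1 := by
  induction j with
  | zero => exact zero_lt_one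
  | succ j ih => exact div_pos ih (mul_pos (by norm_num) (N_pos j))

theorem cc_pos (j : ℕ) : 0 < cc j := st_pos (j + 1)

theorem cc_le (j : ℕ) : cc j ≤ (st j).1 / 5 := by
  rw [cc_eq]
  exact div_le_div_of_nonneg_left (st_pos j).le (by norm_num)
    (by linarith [one_le_N j])

theorem st_anti : Antitone fun j => (st j).1 := by
  refine antitone_nat_of_succ_le fun j => ?_
  have h1 := cc_le j
  have h2 := st_pos j
  change cc j ≤ (st j).1
  linarith

theorem st_le_pow (j : ℕ) : (st j).1 ≤ (1 / 5) ^ j := by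
  induction j with
  | zero => simp [st]
  | succ j ih =>
    have := cc_le j
    rw [pow_succ]
    change cc j ≤ _
    linarith

theorem st_le_one (j : ℕ) : (st j).1 ≤ 1 := st_anti (Nat.zero_le j)

theorem cc_le_one (j : ℕ) : cc j ≤ 1 := st_le_one (j + 1)

theorem cc_lt (j : ℕ) : cc j * j < 1 := by
  have h1 : cc j ≤ (1 / 5) ^ (j + 1) := st_le_pow (j + 1)
  have h2 : (j : ℝ) < 5 ^ (j + 1) := by
    have : j < 5 ^ (j + 1) := (Nat.lt_succ_self j).trans (Nat.lt_pow_self (by norm_num))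
    exact_mod_cast this
  have h3 : (0 : ℝ) < (1 / 5) ^ (j + 1) := by positivity
  calc cc j * j ≤ (1 / 5) ^ (j + 1) * j := mul_le_mul_of_nonneg_right h1 (Nat.cast_nonneg _)
    _ < (1 / 5) ^ (j + 1) * 5 ^ (j + 1) := mul_lt_mul_of_pos_left h2 h3
    _ = 1 := by rw [← mul_pow]; norm_num

/-- the functions of the `j`-th block -/
noncomputable def ff (j w x : ℕ) : ℝ := (bl j).f w x

theorem cc_f_le (j w x : ℕ) : |cc j * ff j w x| ≤ 4 / 5 * (st j).1 := by
  rw [abs_mul, abs_of_pos (cc_pos j)]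
  calc cc j * |ff j w x| ≤ cc j * (4 * (bl j).N) :=
        mul_le_mul_of_nonneg_left ((bl j).f_le w x) (cc_pos j).le
    _ = 4 / 5 * (st j).1 := by
        rw [cc_eq]
        have := (N_pos j).ne'
        field_simp

/-- the matrix; blocks with `ty j = true` are copies of the core, the other ones are transposed -/
noncomputable def Mat (ty : ℕ → Bool) (r s : ℕ) : ℝ :=
  if (Nat.unpair r).1 = (Nat.unpair s).1 then
    cc (Nat.unpair s).1 * (if ty (Nat.unpair s).1 = true then
      ff (Nat.unpair s).1 (Nat.unpair r).2 (Nat.unpair s).2 else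
      ff (Nat.unpair s).1 (Nat.unpair s).2 (Nat.unpair r).2)
  else 0

theorem Mat_transpose (ty : ℕ → Bool) (r s : ℕ) : Mat ty r s = Mat (fun j => !ty j) s r := by
  unfold Mat
  by_cases h : (Nat.unpair r).1 = (Nat.unpair s).1
  · rw [if_pos h, if_pos h.symm, h]
    cases ht : ty (Nat.unpair s).1 <;> simp [ht]
  · rw [if_neg h, if_neg fun h' => h h'.symm]

theorem Mat_le (ty : ℕ → Bool) (r s : ℕ) : |Mat ty r s| ≤ 4 / 5 * (st (Nat.unpair s).1).1 := by
  have h0 := st_pos (Nat.unpair s).1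
  unfold Mat
  split_ifs
  · exact cc_f_le _ _ _
  · exact cc_f_le _ _ _
  · rw [abs_zero]; positivity

theorem Mat_le_one (ty : ℕ → Bool) (r s : ℕ) : |Mat ty r s| ≤ 1 := by
  have h1 := Mat_le ty r s
  have h2 := st_le_one (Nat.unpair s).1
  linarith

theorem bl_f_zero {j w x : ℕ} (h : RR j ≤ w ∨ RR j ≤ x) : ff j w x = 0 := by
  rw [RR] at h
  rw [ff]
  by_cases hw : (bl j).nW ≤ w
  · exact (bl j).zW w x hw
  · exact (bl j).zX w x (by omega)

/-- the rows which meet the column `x` -/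
noncomputable def SS (x : ℕ) : Finset ℕ :=
  (Finset.range (RR (Nat.unpair x).1)).image (Nat.pair (Nat.unpair x).1)

theorem Mat_zero (ty : ℕ → Bool) {r s : ℕ} (h : r ∉ SS s) : Mat ty r s = 0 := by
  unfold Mat
  split_ifs with h1 h2
  · rw [bl_f_zero, mul_zero]
    left
    by_contra hlt
    rw [not_le] at hlt
    exact h (Finset.mem_image.2 ⟨(Nat.unpair r).2, Finset.mem_range.2 hlt, by
      rw [← h1, Nat.pair_unpair]⟩)
  · rw [bl_f_zero, mul_zero]
    right
    by_contra hlt
    rw [not_le] at hlt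
    exact h (Finset.mem_image.2 ⟨(Nat.unpair r).2, Finset.mem_range.2 hlt, by
      rw [← h1, Nat.pair_unpair]⟩)
  · rfl

theorem Mat_zero' (ty : ℕ → Bool) {r s : ℕ} (h : RR (Nat.unpair s).1 ≤ (Nat.unpair s).2) :
    Mat ty r s = 0 := by
  unfold Mat
  split_ifs with h1 h2
  · rw [bl_f_zero (Or.inr h), mul_zero]
  · rw [bl_f_zero (Or.inl h), mul_zero]
  · rfl

theorem Mat_pair {ty : ℕ → Bool} {j : ℕ} (hj : ty j = true) (w x : ℕ) :
    Mat ty (Nat.pair j w) (Nat.pair j x) = cc j * ff j w x := by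
  simp [Mat, hj]

/-- the columns of the blocks before `j` -/
noncomputable def EE : ℕ → Finset ℕ
  | 0 => ∅
  | j + 1 => EE j ∪ (Finset.range (RR j)).image (Nat.pair j)

theorem card_EE (j : ℕ) : (EE j).card ≤ (st j).2 := by
  induction j with
  | zero => simp [EE, st]
  | succ j ih =>
    rw [st_snd, EE]
    refine (Finset.card_union_le _ _).trans (add_le_add ih ?_)
    exact Finset.card_image_le.trans (by simp)

theorem mem_EE {j i x : ℕ} (hi : i < j) (hx : x < RR i) : Nat.pair i x ∈ EE j := by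
  induction j with
  | zero => omega
  | succ j ih =>
    rw [EE, Finset.mem_union]
    rcases Nat.lt_succ_iff_lt_or_eq.1 hi with h | h
    · exact Or.inl (ih h)
    · subst h
      exact Or.inr (Finset.mem_image_of_mem _ (Finset.mem_range.2 hx))

end Vale.Agent.P126.H584
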